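import Vale.Agent.P011.H525.Lie.Log

/-!
# The logarithm of an automorphism of forms

For `g` near one there is one small `X` with `exp X = g` which is a derivation of every trilinear
and of every bilinear form preserved by `g`, and which commutes with every real linear map that
commutes with `g`.
-/

open Filter Topology NormedSpace

set_option linter.unusedSectionVars false
set_option maxSynthPendingDepth 3
set_option linter.style.haveILetI false

namespace Vale.Agent.P011.H525.Lie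

variable {V W : Type*} [NormedAddCommGroup V] [NormedSpace ℝ V]
  [NormedAddCommGroup W] [NormedSpace ℝ W]

/-- continuous trilinear map from a function which is linear in each variable -/
theorem exists_tri [FiniteDimensional ℝ V] (N : V → V → V → W)
    (h1 : ∀ y z, IsLinearMap ℝ fun x => N x y z) (h2 : ∀ x z, IsLinearMap ℝ fun y => N x y z)
    (h3 : ∀ x y, IsLinearMap ℝ fun z => N x y z) :
    ∃ M : V →L[ℝ] V →L[ℝ] V →L[ℝ] W, ∀ x y z, M x y z = N x y z := by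
  let N3 : V → V → V →L[ℝ] W := fun x y => LinearMap.toContinuousLinearMap (h3 x y).mk'
  have e3 : ∀ x y z, N3 x y z = N x y z := fun x y z => rfl
  let N2 : V → V →L[ℝ] V →L[ℝ] W := fun x => LinearMap.toContinuousLinearMap
    (IsLinearMap.mk' (N3 x) ⟨fun y y' => by
        ext z
        rw [_root_.add_apply, e3, e3, e3]
        exact (h2 x z).map_add y y', fun r y => by
        ext z
        rw [_root_.smul_apply, e3, e3]
        exact (h2 x z).map_smul r y⟩)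
  have e2 : ∀ x y z, N2 x y z = N x y z := fun x y z => rfl
  refine ⟨LinearMap.toContinuousLinearMap (IsLinearMap.mk' N2 ⟨fun x x' => by
      ext y z
      rw [_root_.add_apply, _root_.add_apply, e2, e2, e2]
      exact (h1 y z).map_add x x', fun r x => by
      ext y z
      rw [_root_.smul_apply, _root_.smul_apply, e2, e2]
      exact (h1 y z).map_smul r x⟩), fun x y z => rfl⟩

theorem exists_bil [FiniteDimensional ℝ V] (N : V → V → W)
    (h1 : ∀ y, IsLinearMap ℝ fun x => N x y) (h2 : ∀ x, IsLinearMap ℝ fun y => N x y) :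
    ∃ M : V →L[ℝ] V →L[ℝ] W, ∀ x y, M x y = N x y := by
  let N2 : V → V →L[ℝ] W := fun x => LinearMap.toContinuousLinearMap (h2 x).mk'
  have e2 : ∀ x y, N2 x y = N x y := fun x y => rfl
  refine ⟨LinearMap.toContinuousLinearMap (IsLinearMap.mk' N2 ⟨fun x x' => by
      ext y
      rw [_root_.add_apply, e2, e2, e2]
      exact (h1 y).map_add x x', fun r x => by
      ext y
      rw [_root_.smul_apply, e2, e2]
      exact (h1 y).map_smul r x⟩), fun x y => rfl⟩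

variable [CompleteSpace V]

theorem hasDerivAt_exp_apply (X : V →L[ℝ] V) (x : V) (t : ℝ) :
    HasDerivAt (fun s : ℝ => exp (s • X) x) (X (exp (t • X) x)) t := by
  have h1 : HasDerivAt (fun s : ℝ => exp (s • X)) (X * exp (t • X)) t :=
    hasDerivAt_exp_smul_const' (𝕂 := ℝ) X t
  exact ((ContinuousLinearMap.apply ℝ V x).hasFDerivAt.comp_hasDerivAt t h1)

theorem hasDerivAt_clm {U : Type*} [NormedAddCommGroup U] [NormedSpace ℝ U] (M : V →L[ℝ] U)
    {f : ℝ → V} {f' : V} {t : ℝ} (h : HasDerivAt f f' t) : HasDerivAt (fun s => M (f s)) (M f') t :=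
  M.hasFDerivAt.comp_hasDerivAt t h

theorem hasDerivAt_tri (M : V →L[ℝ] V →L[ℝ] V →L[ℝ] W) (X : V →L[ℝ] V) (x y z : V) (t : ℝ) :
    HasDerivAt (fun s : ℝ => M (exp (s • X) x) (exp (s • X) y) (exp (s • X) z))
      (M (X (exp (t • X) x)) (exp (t • X) y) (exp (t • X) z) +
        M (exp (t • X) x) (X (exp (t • X) y)) (exp (t • X) z) +
        M (exp (t • X) x) (exp (t • X) y) (X (exp (t • X) z))) t := by
  have h1 : HasDerivAt (fun s : ℝ => M (exp (s • X) x)) (M (X (exp (t • X) x))) t :=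
    hasDerivAt_clm (U := V →L[ℝ] V →L[ℝ] W) M (hasDerivAt_exp_apply X x t)
  have h2 := (h1.clm_apply (hasDerivAt_exp_apply X y t)).clm_apply (hasDerivAt_exp_apply X z t)
  exact h2

theorem hasDerivAt_bil (M : V →L[ℝ] V →L[ℝ] W) (X : V →L[ℝ] V) (x y : V) (t : ℝ) :
    HasDerivAt (fun s : ℝ => M (exp (s • X) x) (exp (s • X) y))
      (M (X (exp (t • X) x)) (exp (t • X) y) + M (exp (t • X) x) (X (exp (t • X) y))) t := by
  have h1 : HasDerivAt (fun s : ℝ => M (exp (s • X) x)) (M (X (exp (t • X) x))) t :=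
    hasDerivAt_clm (U := V →L[ℝ] W) M (hasDerivAt_exp_apply X x t)
  exact h1.clm_apply (hasDerivAt_exp_apply X y t)

theorem zero_of_half {ι : Type*} (s : ι → W) (k : ι → ℝ) (C : ℝ) (h0 : ∀ i, ‖s i‖ ≤ C * k i)
    (hs : ∀ C, (∀ i, ‖s i‖ ≤ C * k i) → ∀ i, ‖s i‖ ≤ C / 2 * k i) (i : ι) : s i = 0 := by
  have h1 : ∀ n : ℕ, ∀ i, ‖s i‖ ≤ C * (1 / 2) ^ n * k i := by
    intro n
    induction n with
    | zero => simpa using h0
    | succ n ih =>
      have h2 := hs _ ih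
      intro i
      have h3 := h2 i
      have h4 : C * (1 / 2) ^ (n + 1) = C * (1 / 2) ^ n / 2 := by
        rw [pow_succ]
        ring
      rw [h4]
      exact h3
  have h2 : Tendsto (fun n : ℕ => C * (1 / 2 : ℝ) ^ n * k i) atTop (𝓝 (C * 0 * k i)) :=
    ((tendsto_pow_atTop_nhds_zero_of_lt_one (by norm_num) (by norm_num)).const_mul C).mul_const _
  have h3 : ‖s i‖ ≤ C * 0 * k i := ge_of_tendsto' h2 fun n => h1 n i
  rw [mul_zero, zero_mul] at h3
  exact norm_le_zero_iff.mp h3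

variable [Nontrivial V]

theorem norm_exp_sub_one {X : V →L[ℝ] V} (hX : ‖X‖ ≤ 1 / 8) {t : ℝ} (ht : t ∈ Set.Icc (0 : ℝ) 1) :
    ‖exp (t • X) - 1‖ ≤ 1 / 7 := by
  have h1 : ‖t • X‖ ≤ 1 / 8 := by
    rw [norm_smul, Real.norm_eq_abs, abs_of_nonneg ht.1]
    exact (mul_le_of_le_one_left (norm_nonneg _) ht.2).trans hX
  have h2 := exp_sub_lip (B := (0 : V →L[ℝ] V)) h1 (by rw [norm_zero]; norm_num)
  rw [exp_zero, sub_zero, sub_zero] at h2
  have h3 : Real.exp (1 / 8) - 1 ≤ 1 / 7 := by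
    have h := Real.exp_bound_div_one_sub_of_interval (x := 1 / 8) (by norm_num) (by norm_num)
    norm_num at h ⊢
    linarith
  have h4 : exp (t • X) - 1 = (exp (t • X) - t • X - 1) + t • X := by abel
  rw [h4]
  refine (norm_add_le _ _).trans ?_
  have h5 : ‖exp (t • X) - t • X - 1‖ ≤ 1 / 7 * (1 / 8) :=
    h2.trans (mul_le_mul h3 h1 (norm_nonneg _) (by norm_num))
  linarith

theorem norm_exp_apply_sub {X : V →L[ℝ] V} (hX : ‖X‖ ≤ 1 / 8) {t : ℝ}
    (ht : t ∈ Set.Icc (0 : ℝ) 1) (x : V) : ‖exp (t • X) x - x‖ ≤ 1 / 7 * ‖x‖ := by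
  have h1 : exp (t • X) x - x = (exp (t • X) - 1) x := rfl
  rw [h1]
  exact ((exp (t • X) - 1).le_opNorm x).trans
    (mul_le_mul_of_nonneg_right (norm_exp_sub_one hX ht) (norm_nonneg _))

theorem norm_exp_apply {X : V →L[ℝ] V} (hX : ‖X‖ ≤ 1 / 8) {t : ℝ}
    (ht : t ∈ Set.Icc (0 : ℝ) 1) (x : V) : ‖exp (t • X) x‖ ≤ 8 / 7 * ‖x‖ := by
  have h1 : exp (t • X) x = (exp (t • X) x - x) + x := by abel
  rw [h1]
  refine (norm_add_le _ _).trans ?_
  have h2 := norm_exp_apply_sub hX ht x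
  linarith

/-- a small derivation whose exponential preserves a trilinear form kills it -/
theorem tri_eq_zero (M : V →L[ℝ] V →L[ℝ] V →L[ℝ] W) {X : V →L[ℝ] V} (hX : ‖X‖ ≤ 1 / 8)
    (h : ∀ x y z, M (exp X x) (exp X y) (exp X z) = M x y z) (x y z : V) :
    M (X x) y z + M x (X y) z + M x y (X z) = 0 := by
  let S : V → V → V → W := fun x y z => M (X x) y z + M x (X y) z + M x y (X z)
  have hS1 : ∀ x x' y z, S (x + x') y z = S x y z + S x' y z := fun x x' y z => by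
    simp only [S, map_add, _root_.add_apply]
    abel
  have hS2 : ∀ x y y' z, S x (y + y') z = S x y z + S x y' z := fun x y y' z => by
    simp only [S, map_add, _root_.add_apply]
    abel
  have hS3 : ∀ x y z z', S x y (z + z') = S x y z + S x y z' := fun x y z z' => by
    simp only [S, map_add]
    abel
  have hM : ∀ x y z, ‖M x y z‖ ≤ ‖M‖ * (‖x‖ * ‖y‖ * ‖z‖) := fun x y z => by
    have h1 : ‖M x y z‖ ≤ ‖M x y‖ * ‖z‖ := (M x y).le_opNorm z
    have h2 : ‖M x y‖ ≤ ‖M x‖ * ‖y‖ := (M x).le_opNorm y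
    have h3 : ‖M x‖ ≤ ‖M‖ * ‖x‖ := M.le_opNorm x
    calc ‖M x y z‖ ≤ ‖M‖ * ‖x‖ * ‖y‖ * ‖z‖ :=
          h1.trans (mul_le_mul_of_nonneg_right (h2.trans (mul_le_mul_of_nonneg_right h3
            (norm_nonneg _))) (norm_nonneg _))
      _ = ‖M‖ * (‖x‖ * ‖y‖ * ‖z‖) := by ring
  have h0 : ∀ i : V × V × V, ‖S i.1 i.2.1 i.2.2‖ ≤
      3 * ‖M‖ * ‖X‖ * (‖i.1‖ * ‖i.2.1‖ * ‖i.2.2‖) := by
    rintro ⟨x, y, z⟩
    have h1 : ‖M (X x) y z‖ ≤ ‖M‖ * ‖X‖ * (‖x‖ * ‖y‖ * ‖z‖) :=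
      calc ‖M (X x) y z‖ ≤ ‖M‖ * (‖X x‖ * ‖y‖ * ‖z‖) := hM _ _ _
        _ ≤ ‖M‖ * (‖X‖ * ‖x‖ * ‖y‖ * ‖z‖) := by
            gcongr
            exact X.le_opNorm x
        _ = ‖M‖ * ‖X‖ * (‖x‖ * ‖y‖ * ‖z‖) := by ring
    have h2 : ‖M x (X y) z‖ ≤ ‖M‖ * ‖X‖ * (‖x‖ * ‖y‖ * ‖z‖) :=
      calc ‖M x (X y) z‖ ≤ ‖M‖ * (‖x‖ * ‖X y‖ * ‖z‖) := hM _ _ _
        _ ≤ ‖M‖ * (‖x‖ * (‖X‖ * ‖y‖) * ‖z‖) := by
            gcongr
            exact X.le_opNorm y
        _ = ‖M‖ * ‖X‖ * (‖x‖ * ‖y‖ * ‖z‖) := by ring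
    have h3 : ‖M x y (X z)‖ ≤ ‖M‖ * ‖X‖ * (‖x‖ * ‖y‖ * ‖z‖) :=
      calc ‖M x y (X z)‖ ≤ ‖M‖ * (‖x‖ * ‖y‖ * ‖X z‖) := hM _ _ _
        _ ≤ ‖M‖ * (‖x‖ * ‖y‖ * (‖X‖ * ‖z‖)) := by
            gcongr
            exact X.le_opNorm z
        _ = ‖M‖ * ‖X‖ * (‖x‖ * ‖y‖ * ‖z‖) := by ring
    calc ‖S x y z‖ ≤ ‖M (X x) y z‖ + ‖M x (X y) z‖ + ‖M x y (X z)‖ := norm_add₃_le
      _ ≤ 3 * ‖M‖ * ‖X‖ * (‖x‖ * ‖y‖ * ‖z‖) := by linarith
  refine zero_of_half (fun i : V × V × V => S i.1 i.2.1 i.2.2)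
    (fun i => ‖i.1‖ * ‖i.2.1‖ * ‖i.2.2‖) _ h0 ?_ (x, y, z)
  intro C hC i
  obtain ⟨x, y, z⟩ := i
  have hC' : ∀ x y z, ‖S x y z‖ ≤ C * (‖x‖ * ‖y‖ * ‖z‖) := fun x y z => hC (x, y, z)
  change ‖S x y z‖ ≤ C / 2 * (‖x‖ * ‖y‖ * ‖z‖)
  obtain ⟨v, hv⟩ := exists_ne (0 : V)
  have hC0 : 0 ≤ C := by
    have h1 := (norm_nonneg _).trans (hC' v v v)
    have h2 : 0 < ‖v‖ * ‖v‖ * ‖v‖ := by positivity
    exact nonneg_of_mul_nonneg_left h1 h2
  have hd : ∀ t ∈ Set.Icc (0 : ℝ) 1, HasDerivWithinAt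
      (fun s : ℝ => M (exp (s • X) x) (exp (s • X) y) (exp (s • X) z) - s • S x y z)
      (S (exp (t • X) x) (exp (t • X) y) (exp (t • X) z) - S x y z) (Set.Icc 0 1) t := by
    intro t _
    have h1 := hasDerivAt_tri M X x y z t
    have h2 : HasDerivAt (fun s : ℝ => s • S x y z) ((1 : ℝ) • S x y z) t :=
      (hasDerivAt_id t).smul_const (S x y z)
    rw [one_smul] at h2
    exact (h1.sub h2).hasDerivWithinAt
  have hb : ∀ t ∈ Set.Ico (0 : ℝ) 1,
      ‖S (exp (t • X) x) (exp (t • X) y) (exp (t • X) z) - S x y z‖ ≤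
        C / 2 * (‖x‖ * ‖y‖ * ‖z‖) := by
    intro t ht'
    have ht : t ∈ Set.Icc (0 : ℝ) 1 := ⟨ht'.1, ht'.2.le⟩
    have e1 : S (exp (t • X) x) (exp (t • X) y) (exp (t • X) z) - S x y z =
        S (exp (t • X) x - x) (exp (t • X) y) (exp (t • X) z) +
          S x (exp (t • X) y - y) (exp (t • X) z) + S x y (exp (t • X) z - z) := by
      have a1 := hS1 (exp (t • X) x - x) x (exp (t • X) y) (exp (t • X) z)
      have a2 := hS2 x (exp (t • X) y - y) y (exp (t • X) z)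
      have a3 := hS3 x y (exp (t • X) z - z) z
      rw [sub_add_cancel] at a1 a2 a3
      rw [a1, a2, a3]
      abel
    have hx1 := norm_exp_apply_sub hX ht x
    have hy1 := norm_exp_apply_sub hX ht y
    have hz1 := norm_exp_apply_sub hX ht z
    have hy2 := norm_exp_apply hX ht y
    have hz2 := norm_exp_apply hX ht z
    have b1 : ‖S (exp (t • X) x - x) (exp (t • X) y) (exp (t • X) z)‖ ≤
        C * (1 / 7 * ‖x‖ * (8 / 7 * ‖y‖) * (8 / 7 * ‖z‖)) :=
      (hC' _ _ _).trans (by gcongr)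
    have b2 : ‖S x (exp (t • X) y - y) (exp (t • X) z)‖ ≤
        C * (‖x‖ * (1 / 7 * ‖y‖) * (8 / 7 * ‖z‖)) :=
      (hC' _ _ _).trans (by gcongr)
    have b3 : ‖S x y (exp (t • X) z - z)‖ ≤ C * (‖x‖ * ‖y‖ * (1 / 7 * ‖z‖)) :=
      (hC' _ _ _).trans (by gcongr)
    rw [e1]
    refine norm_add₃_le.trans ?_
    have h9 : 0 ≤ C * (‖x‖ * ‖y‖ * ‖z‖) := by positivity
    nlinarith
  have hm := norm_image_sub_le_of_norm_deriv_le_segment_01' hd hb
  have e2 : (M (exp ((1 : ℝ) • X) x) (exp ((1 : ℝ) • X) y) (exp ((1 : ℝ) • X) z) -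
      (1 : ℝ) • S x y z) - (M (exp ((0 : ℝ) • X) x) (exp ((0 : ℝ) • X) y)
        (exp ((0 : ℝ) • X) z) - (0 : ℝ) • S x y z) = -S x y z := by
    rw [one_smul, zero_smul, exp_zero, h, one_smul, zero_smul]
    change (M x y z - S x y z) - (M x y z - 0) = _
    abel
  rw [e2, norm_neg] at hm
  exact hm

/-- the same for a bilinear form -/
theorem bil_eq_zero (M : V →L[ℝ] V →L[ℝ] W) {X : V →L[ℝ] V} (hX : ‖X‖ ≤ 1 / 8)
    (h : ∀ x y, M (exp X x) (exp X y) = M x y) (x y : V) : M (X x) y + M x (X y) = 0 := by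
  let S : V → V → W := fun x y => M (X x) y + M x (X y)
  have hS1 : ∀ x x' y, S (x + x') y = S x y + S x' y := fun x x' y => by
    simp only [S, map_add, _root_.add_apply]
    abel
  have hS2 : ∀ x y y', S x (y + y') = S x y + S x y' := fun x y y' => by
    simp only [S, map_add]
    abel
  have hM : ∀ x y, ‖M x y‖ ≤ ‖M‖ * (‖x‖ * ‖y‖) := fun x y => by
    have h2 : ‖M x y‖ ≤ ‖M x‖ * ‖y‖ := (M x).le_opNorm y
    have h3 : ‖M x‖ ≤ ‖M‖ * ‖x‖ := M.le_opNorm x
    calc ‖M x y‖ ≤ ‖M‖ * ‖x‖ * ‖y‖ := h2.trans (mul_le_mul_of_nonneg_right h3 (norm_nonneg _))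
      _ = ‖M‖ * (‖x‖ * ‖y‖) := by ring
  have h0 : ∀ i : V × V, ‖S i.1 i.2‖ ≤ 2 * ‖M‖ * ‖X‖ * (‖i.1‖ * ‖i.2‖) := by
    rintro ⟨x, y⟩
    have h1 : ‖M (X x) y‖ ≤ ‖M‖ * ‖X‖ * (‖x‖ * ‖y‖) :=
      calc ‖M (X x) y‖ ≤ ‖M‖ * (‖X x‖ * ‖y‖) := hM _ _
        _ ≤ ‖M‖ * (‖X‖ * ‖x‖ * ‖y‖) := by
            gcongr
            exact X.le_opNorm x
        _ = ‖M‖ * ‖X‖ * (‖x‖ * ‖y‖) := by ring
    have h2 : ‖M x (X y)‖ ≤ ‖M‖ * ‖X‖ * (‖x‖ * ‖y‖) :=
      calc ‖M x (X y)‖ ≤ ‖M‖ * (‖x‖ * ‖X y‖) := hM _ _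
        _ ≤ ‖M‖ * (‖x‖ * (‖X‖ * ‖y‖)) := by
            gcongr
            exact X.le_opNorm y
        _ = ‖M‖ * ‖X‖ * (‖x‖ * ‖y‖) := by ring
    calc ‖S x y‖ ≤ ‖M (X x) y‖ + ‖M x (X y)‖ := norm_add_le _ _
      _ ≤ 2 * ‖M‖ * ‖X‖ * (‖x‖ * ‖y‖) := by linarith
  refine zero_of_half (fun i : V × V => S i.1 i.2) (fun i => ‖i.1‖ * ‖i.2‖) _ h0 ?_ (x, y)
  intro C hC i
  obtain ⟨x, y⟩ := i
  have hC' : ∀ x y, ‖S x y‖ ≤ C * (‖x‖ * ‖y‖) := fun x y => hC (x, y)
  change ‖S x y‖ ≤ C / 2 * (‖x‖ * ‖y‖)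
  obtain ⟨v, hv⟩ := exists_ne (0 : V)
  have hC0 : 0 ≤ C := by
    have h1 := (norm_nonneg _).trans (hC' v v)
    have h2 : 0 < ‖v‖ * ‖v‖ := by positivity
    exact nonneg_of_mul_nonneg_left h1 h2
  have hd : ∀ t ∈ Set.Icc (0 : ℝ) 1, HasDerivWithinAt
      (fun s : ℝ => M (exp (s • X) x) (exp (s • X) y) - s • S x y)
      (S (exp (t • X) x) (exp (t • X) y) - S x y) (Set.Icc 0 1) t := by
    intro t _
    have h1 := hasDerivAt_bil M X x y t
    have h2 : HasDerivAt (fun s : ℝ => s • S x y) ((1 : ℝ) • S x y) t :=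
      (hasDerivAt_id t).smul_const (S x y)
    rw [one_smul] at h2
    exact (h1.sub h2).hasDerivWithinAt
  have hb : ∀ t ∈ Set.Ico (0 : ℝ) 1,
      ‖S (exp (t • X) x) (exp (t • X) y) - S x y‖ ≤ C / 2 * (‖x‖ * ‖y‖) := by
    intro t ht'
    have ht : t ∈ Set.Icc (0 : ℝ) 1 := ⟨ht'.1, ht'.2.le⟩
    have e1 : S (exp (t • X) x) (exp (t • X) y) - S x y =
        S (exp (t • X) x - x) (exp (t • X) y) + S x (exp (t • X) y - y) := by
      have a1 := hS1 (exp (t • X) x - x) x (exp (t • X) y)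
      have a2 := hS2 x (exp (t • X) y - y) y
      rw [sub_add_cancel] at a1 a2
      rw [a1, a2]
      abel
    have hx1 := norm_exp_apply_sub hX ht x
    have hy1 := norm_exp_apply_sub hX ht y
    have hy2 := norm_exp_apply hX ht y
    have b1 : ‖S (exp (t • X) x - x) (exp (t • X) y)‖ ≤ C * (1 / 7 * ‖x‖ * (8 / 7 * ‖y‖)) :=
      (hC' _ _).trans (by gcongr)
    have b2 : ‖S x (exp (t • X) y - y)‖ ≤ C * (‖x‖ * (1 / 7 * ‖y‖)) :=
      (hC' _ _).trans (by gcongr)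
    rw [e1]
    refine (norm_add_le _ _).trans ?_
    have h9 : 0 ≤ C * (‖x‖ * ‖y‖) := by positivity
    nlinarith
  have hm := norm_image_sub_le_of_norm_deriv_le_segment_01' hd hb
  have e2 : (M (exp ((1 : ℝ) • X) x) (exp ((1 : ℝ) • X) y) - (1 : ℝ) • S x y) -
      (M (exp ((0 : ℝ) • X) x) (exp ((0 : ℝ) • X) y) - (0 : ℝ) • S x y) = -S x y := by
    rw [one_smul, zero_smul, exp_zero, h, one_smul, zero_smul]
    change (M x y - S x y) - (M x y - 0) = _
    abel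
  rw [e2, norm_neg] at hm
  exact hm

omit [Nontrivial V] in
/-- converse: the exponential of a derivation preserves the trilinear form -/
theorem tri_exp (M : V →L[ℝ] V →L[ℝ] V →L[ℝ] W) {X : V →L[ℝ] V}
    (h : ∀ x y z, M (X x) y z + M x (X y) z + M x y (X z) = 0) (t : ℝ) (x y z : V) :
    M (exp (t • X) x) (exp (t • X) y) (exp (t • X) z) = M x y z := by
  have h1 : ∀ s : ℝ, HasDerivAt
      (fun s : ℝ => M (exp (s • X) x) (exp (s • X) y) (exp (s • X) z)) 0 s := fun s => by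
    have h2 := hasDerivAt_tri M X x y z s
    rw [h] at h2
    exact h2
  have h2 := is_const_of_deriv_eq_zero (fun s => (h1 s).differentiableAt)
    (fun s => (h1 s).deriv) t 0
  simp only [zero_smul, exp_zero] at h2
  exact h2

omit [Nontrivial V] in
theorem bil_exp (M : V →L[ℝ] V →L[ℝ] W) {X : V →L[ℝ] V}
    (h : ∀ x y, M (X x) y + M x (X y) = 0) (t : ℝ) (x y : V) :
    M (exp (t • X) x) (exp (t • X) y) = M x y := by
  have h1 : ∀ s : ℝ, HasDerivAt
      (fun s : ℝ => M (exp (s • X) x) (exp (s • X) y)) 0 s := fun s => by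
    have h2 := hasDerivAt_bil M X x y s
    rw [h] at h2
    exact h2
  have h2 := is_const_of_deriv_eq_zero (fun s => (h1 s).differentiableAt)
    (fun s => (h1 s).deriv) t 0
  simp only [zero_smul, exp_zero] at h2
  exact h2

end Vale.Agent.P011.H525.Lie

/-! ### Complex spaces -/

namespace Vale.Agent.P011.H525.Lie

variable {V : Type*} [NormedAddCommGroup V] [NormedSpace ℂ V]

/-- real linear function -/
def RLin (f : V → ℂ) : Prop :=
  (∀ x y, f (x + y) = f x + f y) ∧ ∀ (r : ℝ) x, f ((r : ℂ) • x) = r * f x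

/-- real trilinear function -/
def Tri (N : V → V → V → ℂ) : Prop :=
  (∀ y z, RLin fun x => N x y z) ∧ (∀ x z, RLin fun y => N x y z) ∧ ∀ x y, RLin fun z => N x y z

/-- real bilinear function -/
def Bil (h : V → V → ℂ) : Prop :=
  (∀ y, RLin fun x => h x y) ∧ ∀ x, RLin fun y => h x y

/-- real linear map -/
def RMap (c : V → V) : Prop :=
  (∀ x y, c (x + y) = c x + c y) ∧ ∀ (r : ℝ) x, c ((r : ℂ) • x) = (r : ℂ) • c x

theorem RLin.isLinearMap {f : V → ℂ} (h : RLin f) : IsLinearMap ℝ f :=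
  ⟨h.1, fun r x => by
    rw [Complex.real_smul, ← h.2 r x]
    rfl⟩

theorem RMap.isLinearMap {f : V → V} (h : RMap f) : IsLinearMap ℝ f :=
  ⟨h.1, fun r x => h.2 r x⟩

/-- restriction of scalars as a ring homomorphism -/
noncomputable def resR : (V →L[ℂ] V) →+* (V →L[ℝ] V) where
  toFun X := X.restrictScalars ℝ
  map_one' := rfl
  map_mul' _ _ := rfl
  map_zero' := rfl
  map_add' _ _ := rfl

theorem resR_apply (X : V →L[ℂ] V) (x : V) : resR X x = X x := rfl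

theorem norm_resR (X : V →L[ℂ] V) : ‖resR X‖ = ‖X‖ := ContinuousLinearMap.norm_restrictScalars X

theorem continuous_resR : Continuous (resR : (V →L[ℂ] V) → (V →L[ℝ] V)) :=
  (AddMonoidHomClass.isometry_of_norm resR norm_resR).continuous

theorem resR_smul (t : ℝ) (X : V →L[ℂ] V) : resR (t • X) = t • resR X := rfl

theorem resR_injective : Function.Injective (resR : (V →L[ℂ] V) → (V →L[ℝ] V)) := fun X Y h => by
  ext x
  exact congrArg (fun Z : V →L[ℝ] V => Z x) h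

theorem resR_exp [CompleteSpace V] (X : V →L[ℂ] V) : resR (exp X) = exp (resR X) := by
  letI : NormedAlgebra ℚ (V →L[ℂ] V) := NormedAlgebra.restrictScalars ℚ ℝ _
  letI : NormedAlgebra ℚ (V →L[ℝ] V) := NormedAlgebra.restrictScalars ℚ ℝ _
  exact NormedSpace.map_exp resR continuous_resR X

variable [FiniteDimensional ℂ V]

/-- **the logarithm of an automorphism of forms**: one small `X` with `exp X = g`, a derivation of
every real trilinear and every real bilinear form preserved by `g`, commuting with every real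
linear map which commutes with `g`. -/
theorem exists_log_form [Nontrivial V] {g : V →L[ℂ] V} (hg : ‖g - 1‖ ≤ 1 / 16) :
    ∃ X : V →L[ℂ] V, ‖X‖ ≤ 2 * ‖g - 1‖ ∧ exp X = g ∧
      (∀ N : V → V → V → ℂ, Tri N → (∀ x y z, N (g x) (g y) (g z) = N x y z) →
        ∀ x y z, N (X x) y z + N x (X y) z + N x y (X z) = 0) ∧
      (∀ h : V → V → ℂ, Bil h → (∀ x y, h (g x) (g y) = h x y) →
        ∀ x y, h (X x) y + h x (X y) = 0) ∧
      ∀ c : V → V, RMap c → (∀ x, g (c x) = c (g x)) → ∀ x, X (c x) = c (X x) := by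
  haveI : CompleteSpace V := FiniteDimensional.complete ℂ V
  have hg' : ‖resR g - 1‖ = ‖g - 1‖ := by
    rw [← map_one resR, ← map_sub, norm_resR]
  obtain ⟨Y, hY1, hY2, hY3⟩ := exists_log (g := resR g) (by rw [hg']; linarith)
  have hYs : ∀ c : V → V, RMap c → (∀ x, g (c x) = c (g x)) → ∀ x, Y (c x) = c (Y x) := by
    intro c hc hcg x
    let C : V →L[ℝ] V := LinearMap.toContinuousLinearMap hc.isLinearMap.mk'
    have h1 : Commute C (resR g) := by
      ext x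
      exact (hcg x).symm
    have h2 := hY3 C h1
    exact (congrArg (fun Z : V →L[ℝ] V => Z x) h2.eq).symm
  let X : V →L[ℂ] V := LinearMap.toContinuousLinearMap
    { toFun := fun x => Y x
      map_add' := fun x y => map_add Y x y
      map_smul' := fun z x => hYs (fun x => z • x)
        ⟨fun x y => smul_add z x y, fun r x => smul_comm _ _ _⟩
        (fun x => map_smul g z x) x }
  have hX : resR X = Y := by
    ext x
    rfl
  have hXn : ‖X‖ ≤ 2 * ‖g - 1‖ := by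
    rw [← norm_resR, hX, ← hg']
    exact hY1
  have hY8 : ‖Y‖ ≤ 1 / 8 := by
    rw [hg'] at hY1
    linarith
  have hYg : ∀ x, exp Y x = g x := fun x => by
    rw [hY2]
    rfl
  refine ⟨X, hXn, ?_, ?_, ?_, hYs⟩
  · refine resR_injective ?_
    rw [resR_exp, hX, hY2]
  · intro N hN hNg x y z
    obtain ⟨M, hM⟩ := exists_tri N (fun y z => (hN.1 y z).isLinearMap)
      (fun x z => (hN.2.1 x z).isLinearMap) (fun x y => (hN.2.2 x y).isLinearMap)
    have h1 := tri_eq_zero M hY8 (fun x y z => by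
      rw [hM, hM, hYg, hYg, hYg]
      exact hNg x y z) x y z
    rw [hM, hM, hM] at h1
    exact h1
  · intro h hh hhg x y
    obtain ⟨M, hM⟩ := exists_bil h (fun y => (hh.1 y).isLinearMap)
      (fun x => (hh.2 x).isLinearMap)
    have h1 := bil_eq_zero M hY8 (fun x y => by
      rw [hM, hM, hYg, hYg]
      exact hhg x y) x y
    rw [hM, hM] at h1
    exact h1

theorem resR_exp_smul [CompleteSpace V] (t : ℝ) (X : V →L[ℂ] V) (x : V) :
    exp (t • X) x = exp (t • resR X) x := by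
  rw [← resR_smul, ← resR_exp]
  rfl

/-- converse for trilinear forms -/
theorem exp_tri {X : V →L[ℂ] V} {N : V → V → V → ℂ} (hN : Tri N)
    (h : ∀ x y z, N (X x) y z + N x (X y) z + N x y (X z) = 0) (t : ℝ) (x y z : V) :
    N (exp (t • X) x) (exp (t • X) y) (exp (t • X) z) = N x y z := by
  haveI : CompleteSpace V := FiniteDimensional.complete ℂ V
  obtain ⟨M, hM⟩ := exists_tri N (fun y z => (hN.1 y z).isLinearMap)
    (fun x z => (hN.2.1 x z).isLinearMap) (fun x y => (hN.2.2 x y).isLinearMap)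
  have h1 := tri_exp M (X := resR X) (fun x y z => by
    rw [hM, hM, hM]
    exact h x y z) t x y z
  rw [hM, hM] at h1
  rw [resR_exp_smul, resR_exp_smul, resR_exp_smul]
  exact h1

/-- converse for bilinear forms -/
theorem exp_bil {X : V →L[ℂ] V} {N : V → V → ℂ} (hN : Bil N)
    (h : ∀ x y, N (X x) y + N x (X y) = 0) (t : ℝ) (x y : V) :
    N (exp (t • X) x) (exp (t • X) y) = N x y := by
  haveI : CompleteSpace V := FiniteDimensional.complete ℂ V
  obtain ⟨M, hM⟩ := exists_bil N (fun y => (hN.1 y).isLinearMap)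
    (fun x => (hN.2 x).isLinearMap)
  have h1 := bil_exp M (X := resR X) (fun x y => by
    rw [hM, hM]
    exact h x y) t x y
  rw [hM, hM] at h1
  rw [resR_exp_smul, resR_exp_smul]
  exact h1

/-- converse for real linear maps -/
theorem exp_comm {X : V →L[ℂ] V} {c : V → V} (hc : RMap c) (h : ∀ x, X (c x) = c (X x)) (t : ℝ)
    (x : V) : exp (t • X) (c x) = c (exp (t • X) x) := by
  haveI : CompleteSpace V := FiniteDimensional.complete ℂ V
  let C : V →L[ℝ] V := LinearMap.toContinuousLinearMap hc.isLinearMap.mk'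
  have h1 : Commute C (t • resR X) := by
    refine Commute.smul_right ?_ t
    ext x
    exact (h x).symm
  have h2 : Commute C (exp (t • resR X)) := Commute.exp_right h1
  have h3 := congrArg (fun Z : V →L[ℝ] V => Z x) h2.eq
  rw [resR_exp_smul, resR_exp_smul]
  exact h3.symm

end Vale.Agent.P011.H525.Lie
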