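import Vale.Agent.P011.E6.Ids
import Vale.Agent.P011.H261.Rl.Spec
import Vale.Agent.P011.H525.Lie.Form

/-!
# Logarithms and exponentials in the groups at an infinite place

Elements near one of the group `Lg` at an embedding are exponentials of small elements of the Lie
algebra `Ll`, and conversely the exponentials of `Ll` are in `Lg`.
-/

open NormedSpace

set_option maxSynthPendingDepth 3

namespace Vale.Agent.P011.H525.Lie

open Vale.Agent.P011.MPQ Vale.Agent.P011.D4 Vale.Agent.P011.D4.Oct Vale.Agent.P011.E6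
open Vale.Agent.P011.E6.Alb Vale.Agent.P011.H261.Rl
open scoped ComplexConjugate

variable {a b c : ℂˣ}

/-! ### The trilinear form -/

/-- the trilinear form -/
noncomputable def N3 (x y z : Alb a b c) : ℂ := tf (cross x y) z

theorem tri_N3 : Tri (N3 : Alb a b c → Alb a b c → Alb a b c → ℂ) := by
  refine ⟨fun y z => ⟨fun x x' => ?_, fun r x => ?_⟩, fun x z => ⟨fun y y' => ?_, fun r y => ?_⟩,
    fun x y => ⟨fun z z' => ?_, fun r z => ?_⟩⟩
  · simp only [N3, cross_add_left, tf_add_left]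
  · simp only [N3, cross_smul_left, tf_smul_left]
  · simp only [N3, cross_add_right, tf_add_left]
  · simp only [N3, cross_smul_right, tf_smul_left]
  · simp only [N3, tf_add_right]
  · simp only [N3, tf_smul_right]

theorem N3_diag (x : Alb a b c) : N3 x x x = 6 * cub x := by
  rw [N3, Alb.cross_self, tf_smul_left, tf_adj_self]
  ring

theorem tf_adj_map {f : R a b c} (hf : f ∈ GN a b c) (x y : Alb a b c) :
    tf (adj (f x)) (f y) = tf (adj x) y := by
  have hf' : ∀ x, cub (f x) = cub x := hf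
  have h1 := cub_add (f x) (f y)
  have h2 := cub_add (f x) (-f y)
  rw [← map_neg f y, ← map_add] at h2
  rw [← map_add] at h1
  rw [hf', hf', hf', cub_add] at h1
  rw [hf', hf', hf', cub_add] at h2
  simp only [map_neg, adj_neg, tf_neg_right] at h2
  linear_combination (h2 - h1) / 2

theorem N3_map {f : R a b c} (hf : f ∈ GN a b c) (x y z : Alb a b c) :
    N3 (f x) (f y) (f z) = N3 x y z := by
  have h1 := tf_adj_map hf (x + y) z
  rw [map_add, adj_add, adj_add, tf_add_left, tf_add_left, tf_add_left, tf_add_left,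
    tf_adj_map hf, tf_adj_map hf] at h1
  change tf (cross (f x) (f y)) (f z) = tf (cross x y) z
  linear_combination h1

theorem mem_GN {f : R a b c} (hf : ∀ x y z, N3 (f x) (f y) (f z) = N3 x y z) : f ∈ GN a b c := by
  intro x
  have h1 := hf x x x
  rw [N3_diag, N3_diag] at h1
  linear_combination h1 / 6

theorem mem_LN {X : R a b c} (hX : ∀ x y z, N3 (X x) y z + N3 x (X y) z + N3 x y (X z) = 0) :
    X ∈ LN a b c := by
  intro x
  have h1 := hX x x x
  have h2 : N3 (X x) x x = 2 * tf (X x) (adj x) := by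
    rw [N3, tf_cross, Alb.cross_self, tf_smul_right]
  have h3 : N3 x (X x) x = 2 * tf (X x) (adj x) := by
    rw [N3, cross_comm, tf_cross, Alb.cross_self, tf_smul_right]
  have h4 : N3 x x (X x) = 2 * tf (X x) (adj x) := by
    rw [N3, Alb.cross_self, tf_smul_left, tf_comm]
  rw [h2, h3, h4] at h1
  linear_combination h1 / 6

theorem LN_polar {X : R a b c} (hX : X ∈ LN a b c) (x y : Alb a b c) :
    tf (X x) (cross x y) + tf (X y) (adj x) = 0 := by
  have hX' : ∀ x, tf (X x) (adj x) = 0 := hX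
  have h1 := hX' (x + y)
  have h2 := hX' (x + -y)
  rw [map_add, adj_add] at h1 h2
  simp only [map_neg, adj_neg, cross_neg_right, tf_add_left, tf_add_right, tf_neg_left,
    tf_neg_right, hX'] at h1 h2
  linear_combination (h1 - h2) / 2

theorem N3_der {X : R a b c} (hX : X ∈ LN a b c) (x y z : Alb a b c) :
    N3 (X x) y z + N3 x (X y) z + N3 x y (X z) = 0 := by
  have h1 := LN_polar hX (y + z) x
  rw [map_add, adj_add] at h1
  simp only [cross_add_left, tf_add_left, tf_add_right] at h1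
  have h2 := LN_polar hX y x
  have h3 := LN_polar hX z x
  have e1 : N3 (X x) y z = tf (X x) (cross y z) := tf_cross _ _ _
  have e2 : N3 x (X y) z = tf (X y) (cross z x) := by
    rw [N3, cross_comm, tf_cross, cross_comm x]
  have e3 : N3 x y (X z) = tf (X z) (cross y x) := by
    rw [N3, tf_comm, cross_comm]
  rw [e1, e2, e3]
  linear_combination h1 - h2 - h3

/-! ### The hermitian form and the conjugation -/

theorem cj_add (x y : Alb a b c) : cj (x + y) = cj x + cj y := by
  ext1
  · exact map_add _ _ _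
  · exact map_add _ _ _
  · exact map_add _ _ _
  all_goals
    ext1
    all_goals
      ext
      all_goals simp [cj, cjo, cjq]

theorem cj_smul (r : ℂ) (x : Alb a b c) : cj (r • x) = conj r • cj x := by
  ext1
  · exact map_mul _ _ _
  · exact map_mul _ _ _
  · exact map_mul _ _ _
  all_goals
    ext1
    all_goals
      ext
      all_goals simp [cj, cjo, cjq]

theorem wt_add (g : Fin 3 → ℂˣ) (x y : Alb a b c) : wt g (x + y) = wt g x + wt g y := by
  ext1 <;> simp [wt, mul_add]

theorem wt_smul (g : Fin 3 → ℂˣ) (r : ℂ) (x : Alb a b c) : wt g (r • x) = r • wt g x := by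
  ext1 <;> simp only [wt, d1_smul, d2_smul, d3_smul, x1_smul, x2_smul, x3_smul, smul_smul] <;>
    ring_nf

theorem rmap_cj : RMap (cj : Alb a b c → Alb a b c) :=
  ⟨cj_add, fun r x => by rw [cj_smul, Complex.conj_ofReal]⟩

theorem bil_hC (g : Fin 3 → ℂˣ) : Bil (hC g : Alb a b c → Alb a b c → ℂ) := by
  refine ⟨fun y => ⟨fun x x' => ?_, fun r x => ?_⟩, fun x => ⟨fun y y' => ?_, fun r y => ?_⟩⟩
  · simp only [hC, wt_add, tf_add_left]
  · simp only [hC, wt_smul, tf_smul_left]
  · simp only [hC, cj_add, tf_add_right]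
  · simp only [hC, cj_smul, tf_smul_right, Complex.conj_ofReal]

/-! ### Logarithm and exponential -/

/-- the logarithm of an element of the group near one, for all structures at once -/
theorem exists_log_alb {f : R a b c} (hn : ‖f - 1‖ ≤ 1 / 16) :
    ∃ X : R a b c, ‖X‖ ≤ 2 * ‖f - 1‖ ∧ exp X = f ∧ (f ∈ GN a b c → X ∈ LN a b c) ∧
      (∀ g : Fin 3 → ℂˣ, f ∈ UH g a b c → X ∈ LH g a b c) ∧ (f ∈ CJ a b c → X ∈ CJ a b c) := by
  obtain ⟨X, h1, h2, h3, h4, h5⟩ := exists_log_form hn
  exact ⟨X, h1, h2, fun hf => mem_LN (h3 N3 tri_N3 (N3_map hf)),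
    fun g hf => h4 (hC g) (bil_hC g) hf, fun hf => h5 cj rmap_cj hf⟩

theorem exp_mem_GN {X : R a b c} (hX : X ∈ LN a b c) (t : ℝ) : exp (t • X) ∈ GN a b c :=
  mem_GN (exp_tri tri_N3 (N3_der hX) t)

theorem exp_mem_UH {g : Fin 3 → ℂˣ} {X : R a b c} (hX : X ∈ LH g a b c) (t : ℝ) :
    exp (t • X) ∈ UH g a b c :=
  exp_bil (bil_hC g) hX t

theorem exp_mem_CJ {X : R a b c} (hX : X ∈ CJ a b c) (t : ℝ) : exp (t • X) ∈ CJ a b c :=
  exp_comm rmap_cj hX t

section place

variable {k E : Type} [Field k] [Field E] [Algebra k E] {σ : E ≃ₐ[k] E} {g : Fin 3 → Eˣ}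
  {φ : E →+* ℂ} {a b c : kˣ}

/-- **the elements near one of the group at a place are exponentials** -/
theorem exists_log_Lg {f : RE φ a b c} (hf : f ∈ Lg σ g φ a b c) (hn : ‖f - 1‖ ≤ 1 / 16) :
    ∃ X ∈ Ll σ g φ a b c, exp X = f ∧ ‖X‖ ≤ 2 * ‖f - 1‖ := by
  obtain ⟨X, h1, h2, h3, h4, h5⟩ := exists_log_alb hn
  exact ⟨X, ⟨h3 hf.1, fun h => h4 _ (hf.2.1 h), fun h => h5 (hf.2.2 h)⟩, h2, h1⟩

/-- the exponentials of the Lie algebra are in the group -/
theorem exp_mem_Lg {X : RE φ a b c} (hX : X ∈ Ll σ g φ a b c) (t : ℝ) :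
    exp (t • X) ∈ Lg σ g φ a b c :=
  ⟨exp_mem_GN hX.1 t, fun h => exp_mem_UH (hX.2.1 h) t, fun h => exp_mem_CJ (hX.2.2 h) t⟩

/-- a set which contains the one-parameter groups of the Lie algebra contains the elements of the
group near one -/
theorem near_mem {L : Set (RE φ a b c)} (hL : ∀ X ∈ Ll σ g φ a b c, X ∈ lieOf L)
    {f : RE φ a b c} (hf : f ∈ Lg σ g φ a b c) (hn : ‖f - 1‖ ≤ 1 / 16) : f ∈ L := by
  obtain ⟨X, hX, h1, -⟩ := exists_log_Lg hf hn
  have h2 := hL X hX 1
  rwa [one_smul, h1] at h2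

end place

end Vale.Agent.P011.H525.Lie
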