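import Vale.Agent.P011.H525.Lie.Trot

/-!
# Logarithms near one

An explicit contraction gives a logarithm of every element near one; it commutes with everything
that commutes with the element.  A vector fixed by `exp Z`, `Z` small, is killed by `Z`.
-/

open Filter Topology NormedSpace

set_option linter.unusedSectionVars false
set_option linter.style.haveILetI false

namespace Vale.Agent.P011.H525.Lie

variable {R : Type*} [NormedRing R] [NormOneClass R] [NormedAlgebra ℝ R] [CompleteSpace R]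

theorem norm_pow_sub_pow' {A B : R} {r : ℝ} (hA : ‖A‖ ≤ r) (hB : ‖B‖ ≤ r) (n : ℕ) :
    ‖A ^ (n + 1) - B ^ (n + 1)‖ ≤ (n + 1) * r ^ n * ‖A - B‖ := by
  have hr : 0 ≤ r := (norm_nonneg _).trans hA
  induction n with
  | zero => simp
  | succ n ih =>
    have h1 : A ^ (n + 1 + 1) - B ^ (n + 1 + 1) =
        A * (A ^ (n + 1) - B ^ (n + 1)) + (A - B) * B ^ (n + 1) := by
      rw [pow_succ' A (n + 1), pow_succ' B (n + 1), mul_sub, sub_mul]
      abel
    have h2 : ‖B ^ (n + 1)‖ ≤ r ^ (n + 1) :=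
      (norm_pow_le B _).trans (pow_le_pow_left₀ (norm_nonneg _) hB _)
    have h3 : ‖A * (A ^ (n + 1) - B ^ (n + 1))‖ ≤ r * ((n + 1) * r ^ n * ‖A - B‖) :=
      (norm_mul_le _ _).trans (mul_le_mul hA ih (norm_nonneg _) hr)
    have h4 : ‖(A - B) * B ^ (n + 1)‖ ≤ ‖A - B‖ * r ^ (n + 1) :=
      (norm_mul_le _ _).trans (mul_le_mul_of_nonneg_left h2 (norm_nonneg _))
    rw [h1]
    refine (norm_add_le _ _).trans ((add_le_add h3 h4).trans (le_of_eq ?_))
    push_cast
    ring

/-- the exponential is near the identity map -/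
theorem exp_sub_lip {A B : R} {r : ℝ} (hA : ‖A‖ ≤ r) (hB : ‖B‖ ≤ r) :
    ‖(exp A - A) - (exp B - B)‖ ≤ (Real.exp r - 1) * ‖A - B‖ := by
  have hsA : HasSum (fun n : ℕ => ((n.factorial : ℝ)⁻¹) • A ^ n) (exp A) :=
    exp_series_hasSum_exp' (𝕂 := ℝ) A
  have hsB : HasSum (fun n : ℕ => ((n.factorial : ℝ)⁻¹) • B ^ n) (exp B) :=
    exp_series_hasSum_exp' (𝕂 := ℝ) B
  have hsR : HasSum (fun n : ℕ => ((n.factorial : ℝ)⁻¹) • r ^ n) (Real.exp r) := by
    rw [Real.exp_eq_exp_ℝ]
    exact exp_series_hasSum_exp' (𝕂 := ℝ) r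
  have hs := hsA.sub hsB
  have h2 : HasSum (fun n : ℕ => (((n + 2).factorial : ℝ)⁻¹) • A ^ (n + 2) -
      (((n + 2).factorial : ℝ)⁻¹) • B ^ (n + 2)) ((exp A - A) - (exp B - B)) := by
    have h3 := (hasSum_nat_add_iff' 2).mpr hs
    have h5 : exp A - exp B - ∑ i ∈ Finset.range 2, (((i.factorial : ℝ)⁻¹) • A ^ i -
        ((i.factorial : ℝ)⁻¹) • B ^ i) = (exp A - A) - (exp B - B) := by
      simp [Finset.sum_range_succ]
      abel
    rw [h5] at h3
    exact h3
  have h4 : HasSum (fun n : ℕ => (((n + 1).factorial : ℝ)⁻¹) * r ^ (n + 1) * ‖A - B‖)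
      ((Real.exp r - 1) * ‖A - B‖) := by
    have h3 := (hasSum_nat_add_iff' 1).mpr hsR
    simp only [smul_eq_mul, Finset.range_one, Finset.sum_singleton, Nat.factorial_zero,
      Nat.cast_one, inv_one, pow_zero, mul_one] at h3
    exact h3.mul_right _
  rw [← h2.tsum_eq]
  refine tsum_of_norm_bounded h4 fun n => ?_
  rw [← smul_sub, norm_smul, Real.norm_eq_abs, abs_of_nonneg (by positivity)]
  have h5 := norm_pow_sub_pow' hA hB (n + 1)
  have h6 : (((n + 2).factorial : ℝ)⁻¹) * (((n + 1 : ℕ) : ℝ) + 1) =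
      (((n + 1).factorial : ℝ)⁻¹) := by
    have h7 : ((n + 2).factorial : ℝ) = (((n + 1 : ℕ) : ℝ) + 1) * ((n + 1).factorial : ℝ) := by
      rw [Nat.factorial_succ (n + 1)]
      push_cast
      ring
    rw [h7]
    have h8 : ((n + 1).factorial : ℝ) ≠ 0 := by positivity
    field_simp
  calc (((n + 2).factorial : ℝ)⁻¹) * ‖A ^ (n + 2) - B ^ (n + 2)‖
      ≤ (((n + 2).factorial : ℝ)⁻¹) * ((((n + 1 : ℕ) : ℝ) + 1) * r ^ (n + 1) * ‖A - B‖) :=
        mul_le_mul_of_nonneg_left h5 (by positivity)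
    _ = (((n + 1).factorial : ℝ)⁻¹) * r ^ (n + 1) * ‖A - B‖ := by
        rw [← h6]
        ring

theorem exp_quarter : Real.exp (1 / 4) - 1 ≤ 1 / 2 := by
  have h := Real.exp_bound_div_one_sub_of_interval (x := 1 / 4) (by norm_num) (by norm_num)
  norm_num at h ⊢
  linarith

/-- **the logarithm**: every element near one is an exponential of a small element which commutes
with everything that commutes with the element -/
theorem exists_log {g : R} (hg : ‖g - 1‖ ≤ 1 / 8) :
    ∃ X : R, ‖X‖ ≤ 2 * ‖g - 1‖ ∧ exp X = g ∧ ∀ h, Commute h g → Commute h X := by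
  let S : Set R := Metric.closedBall 0 (1 / 4) ∩ {X | ∀ h, Commute h g → Commute h X}
  have hSc : IsClosed S := by
    refine Metric.isClosed_closedBall.inter ?_
    have h1 : {X : R | ∀ h, Commute h g → Commute h X} =
        ⋂ h : {h : R // Commute h g}, {X | (h : R) * X = X * h} := by
      ext X
      simp [Commute, SemiconjBy]
    rw [h1]
    exact isClosed_iInter fun h => isClosed_eq (continuous_const.mul continuous_id)
      (continuous_id.mul continuous_const)
  let T : R → R := fun X => X - exp X + g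
  have hT : ∀ X Y : R, ‖X‖ ≤ 1 / 4 → ‖Y‖ ≤ 1 / 4 → ‖T X - T Y‖ ≤ 1 / 2 * ‖X - Y‖ := by
    intro X Y hX hY
    have h1 := exp_sub_lip hX hY
    have h2 : T X - T Y = -((exp X - X) - (exp Y - Y)) := by
      change X - exp X + g - (Y - exp Y + g) = _
      abel
    rw [h2, norm_neg]
    exact h1.trans (mul_le_mul_of_nonneg_right exp_quarter (norm_nonneg _))
  have hT0 : T 0 = g - 1 := by
    change (0 : R) - exp 0 + g = g - 1
    rw [exp_zero]
    abel
  have hmaps : ∀ X ∈ S, T X ∈ S := by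
    rintro X ⟨hX, hXc⟩
    rw [mem_closedBall_zero_iff] at hX
    refine ⟨?_, fun h hh => ?_⟩
    · rw [mem_closedBall_zero_iff]
      have h1 := hT X 0 hX (by rw [norm_zero]; norm_num)
      rw [hT0, sub_zero] at h1
      have h2 : T X = (T X - (g - 1)) + (g - 1) := by abel
      rw [h2]
      refine (norm_add_le _ _).trans ?_
      linarith
    · have h1 := hXc h hh
      exact (h1.sub_right (Commute.exp_right h1)).add_right hh
  haveI : CompleteSpace S := hSc.completeSpace_coe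
  haveI : Nonempty S := ⟨⟨0, by rw [mem_closedBall_zero_iff, norm_zero]; norm_num,
    fun h _ => Commute.zero_right h⟩⟩
  let f : S → S := fun X => ⟨T X, hmaps X X.2⟩
  have hf : ContractingWith (1 / 2) f := by
    refine ⟨by norm_num, LipschitzWith.of_dist_le_mul fun X Y => ?_⟩
    rw [Subtype.dist_eq, Subtype.dist_eq, dist_eq_norm, dist_eq_norm]
    have h1 := hT X Y (mem_closedBall_zero_iff.mp X.2.1) (mem_closedBall_zero_iff.mp Y.2.1)
    simpa using h1
  obtain ⟨hfix⟩ : Nonempty (Function.IsFixedPt f (ContractingWith.fixedPoint f hf)) :=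
    ⟨hf.fixedPoint_isFixedPt⟩
  set X : S := ContractingWith.fixedPoint f hf with hX
  have h1 : T X = (X : R) := congrArg Subtype.val hfix
  have h2 : exp (X : R) = g := by
    have h3 : (X : R) - exp (X : R) + g = X := h1
    have h4 : g - exp (X : R) = 0 := by
      have h5 : g - exp (X : R) = (X : R) - exp (X : R) + g - X := by abel
      rw [h5, h3, sub_self]
    exact (sub_eq_zero.mp h4).symm
  refine ⟨X, ?_, h2, X.2.2⟩
  have h3 := hT X 0 (mem_closedBall_zero_iff.mp X.2.1) (by rw [norm_zero]; norm_num)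
  rw [h1, hT0, sub_zero] at h3
  have h4 : ‖(X : R)‖ ≤ ‖(X : R) - (g - 1)‖ + ‖g - 1‖ := by
    have h5 : (X : R) = ((X : R) - (g - 1)) + (g - 1) := by abel
    conv_lhs => rw [h5]
    exact norm_add_le _ _
  linarith

/-- the exponential is injective near zero -/
theorem exp_inj {X Y : R} (hX : ‖X‖ ≤ 1 / 4) (hY : ‖Y‖ ≤ 1 / 4) (h : exp X = exp Y) : X = Y := by
  have h1 := exp_sub_lip hX hY
  rw [h] at h1
  have h2 : (exp Y - X) - (exp Y - Y) = -(X - Y) := by abel
  rw [h2, norm_neg] at h1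
  have h3 : ‖X - Y‖ ≤ 1 / 2 * ‖X - Y‖ :=
    h1.trans (mul_le_mul_of_nonneg_right exp_quarter (norm_nonneg _))
  have h4 : ‖X - Y‖ = 0 := le_antisymm (by linarith) (norm_nonneg _)
  exact sub_eq_zero.mp (norm_eq_zero.mp h4)

/-- a vector fixed by the exponential of a small operator is killed by the operator -/
theorem apply_eq_zero {V : Type*} [NormedAddCommGroup V] [NormedSpace ℝ V] [CompleteSpace V]
    [Nontrivial V] {Z : V →L[ℝ] V} (hZ : ‖Z‖ ≤ 1 / 4) {v : V} (h : exp Z v = v) : Z v = 0 := by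
  -- the powers `Z ^ n v` through the partial sums: `exp Z v - v - Z v` is small against `Z v`
  have hs : HasSum (fun n : ℕ => ((n.factorial : ℝ)⁻¹) • Z ^ n) (exp Z) :=
    exp_series_hasSum_exp' (𝕂 := ℝ) Z
  have hv : HasSum (fun n : ℕ => ((n.factorial : ℝ)⁻¹) • (Z ^ n) v) (exp Z v) := by
    have h1 := hs.mapL (ContinuousLinearMap.apply ℝ V v)
    simpa using h1
  have h2 : HasSum (fun n : ℕ => (((n + 2).factorial : ℝ)⁻¹) • (Z ^ (n + 2)) v) (-(Z v)) := by
    have h3 := (hasSum_nat_add_iff' 2).mpr hv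
    have h5 : exp Z v - ∑ i ∈ Finset.range 2, ((i.factorial : ℝ)⁻¹) • (Z ^ i) v = -(Z v) := by
      rw [h]
      simp [Finset.sum_range_succ]
    rw [h5] at h3
    exact h3
  have h4 : HasSum (fun n : ℕ => (1 / 4 : ℝ) * (1 / 4) ^ n * ‖Z v‖)
      ((1 / 4 : ℝ) * (1 - 1 / 4)⁻¹ * ‖Z v‖) :=
    ((hasSum_geometric_of_lt_one (by norm_num) (by norm_num)).mul_left _).mul_right _
  have h5 : ‖-(Z v)‖ ≤ (1 / 4 : ℝ) * (1 - 1 / 4)⁻¹ * ‖Z v‖ := by
    rw [← h2.tsum_eq]
    refine tsum_of_norm_bounded h4 fun n => ?_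
    rw [norm_smul, Real.norm_eq_abs, abs_of_nonneg (by positivity)]
    have h6 : (Z ^ (n + 2)) v = (Z ^ (n + 1)) (Z v) := by
      rw [pow_succ Z (n + 1)]
      rfl
    have h7 : ‖(Z ^ (n + 1)) (Z v)‖ ≤ (1 / 4) ^ (n + 1) * ‖Z v‖ := by
      refine ((Z ^ (n + 1)).le_opNorm _).trans (mul_le_mul_of_nonneg_right ?_ (norm_nonneg _))
      exact (norm_pow_le Z _).trans (pow_le_pow_left₀ (norm_nonneg _) hZ _)
    rw [h6]
    have h8 : (((n + 2).factorial : ℝ)⁻¹) ≤ 1 := by
      refine inv_le_one_of_one_le₀ ?_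
      exact_mod_cast Nat.one_le_iff_ne_zero.mpr (Nat.factorial_ne_zero _)
    calc (((n + 2).factorial : ℝ)⁻¹) * ‖(Z ^ (n + 1)) (Z v)‖
        ≤ 1 * ((1 / 4) ^ (n + 1) * ‖Z v‖) :=
          mul_le_mul h8 h7 (norm_nonneg _) zero_le_one
      _ = (1 / 4 : ℝ) * (1 / 4) ^ n * ‖Z v‖ := by ring
  rw [norm_neg] at h5
  have h6 : ‖Z v‖ = 0 := by
    have h7 := norm_nonneg (Z v)
    norm_num at h5
    linarith
  exact norm_eq_zero.mp h6

end Vale.Agent.P011.H525.Lie
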