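import Mathlib

/-!
# The Lie algebra of a closed multiplicative set of a real Banach algebra

Trotter's formula, the exponentials of a closed multiplicative set are closed under sums, limits
and brackets, and logarithms of elements near one.
-/

open Filter Topology NormedSpace

set_option linter.unusedSectionVars false

namespace Vale.Agent.P011.H525.Lie

variable {R : Type*} [NormedRing R] [NormOneClass R] [NormedAlgebra ℝ R] [CompleteSpace R]

/-- the rational algebra structure -/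
@[reducible] noncomputable def ratAlg : NormedAlgebra ℚ R := NormedAlgebra.restrictScalars ℚ ℝ R

theorem norm_exp_le (x : R) : ‖exp x‖ ≤ Real.exp ‖x‖ := by
  rw [Real.exp_eq_exp_ℝ, exp_eq_tsum ℝ, exp_eq_tsum ℝ]
  refine (norm_tsum_le_tsum_norm (norm_expSeries_summable' x)).trans ?_
  refine (norm_expSeries_summable' x).tsum_le_tsum (fun n => ?_) (expSeries_summable' ‖x‖)
  rw [norm_smul, smul_eq_mul, Real.norm_eq_abs, abs_of_nonneg (by positivity)]
  exact mul_le_mul_of_nonneg_left (norm_pow_le x n) (by positivity)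

theorem hasDerivAt_exp (X : R) : HasDerivAt (fun t : ℝ => exp (t • X)) X 0 := by
  have h := hasDerivAt_exp_smul_const (𝕂 := ℝ) X (0 : ℝ)
  simpa using h

theorem exp_nsmul' (n : ℕ) (x : R) : exp (n • x) = exp x ^ n := by
  letI : NormedAlgebra ℚ R := ratAlg
  exact exp_nsmul n x

theorem continuous_exp' : Continuous (exp : R → R) := by
  letI : NormedAlgebra ℚ R := ratAlg
  exact exp_continuous

theorem exp_add' {x y : R} (h : Commute x y) : exp (x + y) = exp x * exp y := by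
  letI : NormedAlgebra ℚ R := ratAlg
  exact exp_add_of_commute h

theorem exp_mul_neg (x : R) : exp x * exp (-x) = 1 := by
  rw [← exp_add' (Commute.neg_right (Commute.refl x)), add_neg_cancel, exp_zero]

theorem exp_neg_mul (x : R) : exp (-x) * exp x = 1 := by
  rw [← exp_add' (Commute.neg_left (Commute.refl x)), neg_add_cancel, exp_zero]

theorem norm_pow_sub_pow {A B : R} {M : ℝ} (hM : 1 ≤ M) (hA : ‖A‖ ≤ M) (hB : ‖B‖ ≤ M) (n : ℕ) :
    ‖A ^ n - B ^ n‖ ≤ n * M ^ n * ‖A - B‖ := by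
  have hM0 : 0 ≤ M := zero_le_one.trans hM
  induction n with
  | zero => simp
  | succ n ih =>
    have h1 : A ^ (n + 1) - B ^ (n + 1) = A * (A ^ n - B ^ n) + (A - B) * B ^ n := by
      rw [pow_succ', pow_succ', mul_sub, sub_mul]
      abel
    have h2 : ‖B ^ n‖ ≤ M ^ n := (norm_pow_le B n).trans (pow_le_pow_left₀ (norm_nonneg _) hB n)
    have h3 : ‖A * (A ^ n - B ^ n)‖ ≤ M * (n * M ^ n * ‖A - B‖) :=
      (norm_mul_le _ _).trans (mul_le_mul hA ih (norm_nonneg _) hM0)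
    have h4 : ‖(A - B) * B ^ n‖ ≤ ‖A - B‖ * M ^ n :=
      (norm_mul_le _ _).trans (mul_le_mul_of_nonneg_left h2 (norm_nonneg _))
    have h5 : M ^ n ≤ M ^ (n + 1) := pow_le_pow_right₀ hM (Nat.le_succ n)
    rw [h1]
    refine (norm_add_le _ _).trans ((add_le_add h3 h4).trans ?_)
    have h6 : ‖A - B‖ * M ^ n ≤ ‖A - B‖ * M ^ (n + 1) :=
      mul_le_mul_of_nonneg_left h5 (norm_nonneg _)
    push_cast
    rw [pow_succ] at h6 ⊢
    nlinarith

/-- **Chernoff's lemma**: the powers of a curve with derivative `Z` at the identity -/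
theorem tendsto_pow_exp {f : ℝ → R} {Z : R} (hf : HasDerivAt f Z 0) (h0 : f 0 = 1) :
    Tendsto (fun n : ℕ => f (1 / ((n : ℝ) + 1)) ^ (n + 1)) atTop (𝓝 (exp Z)) := by
  have hexp : HasDerivAt (fun t : ℝ => exp (t • Z)) Z 0 := hasDerivAt_exp Z
  have hd : HasDerivAt (fun t : ℝ => f t - exp (t • Z)) 0 0 := by
    have h := hf.sub hexp
    rw [sub_self] at h
    exact h
  have ht : Tendsto (fun n : ℕ => 1 / ((n : ℝ) + 1)) atTop (𝓝 0) :=
    tendsto_one_div_add_atTop_nhds_zero_nat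
  -- the difference is small with respect to the parameter
  have hlit : ∀ ε : ℝ, 0 < ε → ∀ᶠ n : ℕ in atTop,
      ‖f (1 / ((n : ℝ) + 1)) - exp ((1 / ((n : ℝ) + 1)) • Z)‖ ≤ ε * (1 / ((n : ℝ) + 1)) := by
    intro ε hε
    have h1 := hd.isLittleO.bound hε
    have h2 := ht.eventually (by simpa using h1)
    filter_upwards [h2] with n hn
    have h3 : (0 : ℝ) < 1 / ((n : ℝ) + 1) := by positivity
    simp only [h0, zero_smul, exp_zero, sub_self, sub_zero, smul_zero, Real.norm_eq_abs,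
      abs_of_pos h3] at hn
    simpa using hn
  have hfb : ∀ᶠ n : ℕ in atTop, ‖f (1 / ((n : ℝ) + 1))‖ ≤
      Real.exp ((‖Z‖ + 1) * (1 / ((n : ℝ) + 1))) := by
    filter_upwards [hlit 1 one_pos] with n hn
    have h3 : (0 : ℝ) < 1 / ((n : ℝ) + 1) := by positivity
    have h4 : ‖exp ((1 / ((n : ℝ) + 1)) • Z)‖ ≤ Real.exp ((1 / ((n : ℝ) + 1)) * ‖Z‖) := by
      refine (norm_exp_le _).trans ?_
      rw [norm_smul, Real.norm_eq_abs, abs_of_pos h3]
    have h5 : ‖f (1 / ((n : ℝ) + 1))‖ ≤ Real.exp ((1 / ((n : ℝ) + 1)) * ‖Z‖) +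
        1 / ((n : ℝ) + 1) := by
      have h6 : f (1 / ((n : ℝ) + 1)) = exp ((1 / ((n : ℝ) + 1)) • Z) +
          (f (1 / ((n : ℝ) + 1)) - exp ((1 / ((n : ℝ) + 1)) • Z)) := by abel
      rw [h6]
      refine (norm_add_le _ _).trans (add_le_add h4 ?_)
      simpa using hn
    refine h5.trans ?_
    have h7 : (1 : ℝ) ≤ Real.exp ((1 / ((n : ℝ) + 1)) * ‖Z‖) := Real.one_le_exp (by positivity)
    have h8 := Real.add_one_le_exp (1 / ((n : ℝ) + 1))
    have h9 : Real.exp ((‖Z‖ + 1) * (1 / ((n : ℝ) + 1))) =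
        Real.exp ((1 / ((n : ℝ) + 1)) * ‖Z‖) * Real.exp (1 / ((n : ℝ) + 1)) := by
      rw [← Real.exp_add]
      congr 1
      ring
    rw [h9]
    nlinarith
  have hpow : ∀ n : ℕ, exp ((1 / ((n : ℝ) + 1)) • Z) ^ (n + 1) = exp Z := by
    intro n
    rw [← exp_nsmul']
    congr 1
    rw [← Nat.cast_smul_eq_nsmul ℝ, smul_smul]
    have : ((n + 1 : ℕ) : ℝ) * (1 / ((n : ℝ) + 1)) = 1 := by
      push_cast
      field_simp
    rw [this, one_smul]
  rw [tendsto_iff_norm_sub_tendsto_zero]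
  rw [Metric.tendsto_atTop]
  intro ε hε
  set K : ℝ := Real.exp (‖Z‖ + 1) with hK
  have hK0 : 0 < K := Real.exp_pos _
  have hev := (hlit (ε / (2 * K)) (by positivity)).and hfb
  obtain ⟨N, hN⟩ := eventually_atTop.mp hev
  refine ⟨N, fun n hn => ?_⟩
  obtain ⟨h1, h2⟩ := hN n hn
  have h3 : (0 : ℝ) < 1 / ((n : ℝ) + 1) := by positivity
  set M : ℝ := Real.exp ((‖Z‖ + 1) * (1 / ((n : ℝ) + 1))) with hM
  have hM1 : 1 ≤ M := Real.one_le_exp (by positivity)
  have hA : ‖exp ((1 / ((n : ℝ) + 1)) • Z)‖ ≤ M := by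
    refine (norm_exp_le _).trans ?_
    rw [norm_smul, Real.norm_eq_abs, abs_of_pos h3]
    refine Real.exp_le_exp.mpr ?_
    nlinarith
  have h4 := norm_pow_sub_pow hM1 h2 hA (n + 1)
  rw [hpow] at h4
  have h5 : M ^ (n + 1) = K := by
    rw [hM, hK, ← Real.exp_nat_mul]
    congr 1
    push_cast
    field_simp
  rw [h5] at h4
  rw [Real.dist_eq, sub_zero, abs_of_nonneg (norm_nonneg _)]
  refine lt_of_le_of_lt (h4.trans (mul_le_mul_of_nonneg_left h1 (by positivity))) ?_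
  have h6 : ((n + 1 : ℕ) : ℝ) * K * (ε / (2 * K) * (1 / ((n : ℝ) + 1))) = ε / 2 := by
    push_cast
    field_simp
  rw [h6]
  linarith

/-- **Trotter's formula** -/
theorem trotter (X Y : R) :
    Tendsto (fun n : ℕ => (exp ((1 / ((n : ℝ) + 1)) • X) * exp ((1 / ((n : ℝ) + 1)) • Y)) ^ (n + 1))
      atTop (𝓝 (exp (X + Y))) := by
  have h := (hasDerivAt_exp X).mul (hasDerivAt_exp Y)
  rw [zero_smul, zero_smul, exp_zero, mul_one, one_mul] at h
  exact tendsto_pow_exp (f := fun t : ℝ => exp (t • X) * exp (t • Y)) h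
    (by rw [zero_smul, zero_smul, exp_zero, mul_one])

/-! ### the Lie algebra -/

/-- the directions of the one parameter groups in `L` -/
def LieOf (L : Set R) : Set R := {X | ∀ t : ℝ, exp (t • X) ∈ L}

variable {L : Set R}

theorem mem_exp {X : R} (hX : X ∈ LieOf L) : exp X ∈ L := by
  have := hX 1
  rwa [one_smul] at this

theorem zero_mem (h1 : (1 : R) ∈ L) : (0 : R) ∈ LieOf L := fun t => by
  rw [smul_zero, exp_zero]
  exact h1

theorem smul_mem {X : R} (hX : X ∈ LieOf L) (c : ℝ) : c • X ∈ LieOf L := fun t => by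
  rw [smul_smul]
  exact hX _

theorem neg_mem {X : R} (hX : X ∈ LieOf L) : -X ∈ LieOf L := by
  have := smul_mem hX (-1)
  rwa [neg_one_smul] at this

theorem pow_mem (h1 : (1 : R) ∈ L) (hm : ∀ a ∈ L, ∀ b ∈ L, a * b ∈ L) {a : R} (ha : a ∈ L)
    (n : ℕ) : a ^ n ∈ L := by
  induction n with
  | zero => rw [pow_zero]; exact h1
  | succ n ih => rw [pow_succ]; exact hm _ ih _ ha

theorem add_mem (hL : IsClosed L) (h1 : (1 : R) ∈ L) (hm : ∀ a ∈ L, ∀ b ∈ L, a * b ∈ L)
    {X Y : R} (hX : X ∈ LieOf L) (hY : Y ∈ LieOf L) : X + Y ∈ LieOf L := fun t => by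
  rw [smul_add]
  refine hL.mem_of_tendsto (trotter (t • X) (t • Y)) (Eventually.of_forall fun n => ?_)
  exact pow_mem h1 hm (hm _ (by rw [smul_smul]; exact hX _) _ (by rw [smul_smul]; exact hY _)) _

theorem isClosed_lieOf (hL : IsClosed L) : IsClosed (LieOf L) := by
  have h : LieOf L = ⋂ t : ℝ, (fun X : R => exp (t • X)) ⁻¹' L := by
    ext X
    simp [LieOf]
  rw [h]
  exact isClosed_iInter fun t => hL.preimage (continuous_exp'.comp (continuous_const_smul t))

theorem exp_conj {a a' : R} (h : a * a' = 1) (h' : a' * a = 1) (X : R) :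
    exp (a * X * a') = a * exp X * a' := by
  letI : NormedAlgebra ℚ R := ratAlg
  let u : Rˣ := ⟨a, a', h, h'⟩
  exact exp_units_conj u X

theorem conj_mem (hm : ∀ a ∈ L, ∀ b ∈ L, a * b ∈ L) {a a' : R} (h : a * a' = 1) (h' : a' * a = 1)
    (ha : a ∈ L) (ha' : a' ∈ L) {X : R} (hX : X ∈ LieOf L) : a * X * a' ∈ LieOf L := fun t => by
  have h1 : t • (a * X * a') = a * (t • X) * a' := by
    rw [mul_smul_comm, smul_mul_assoc]
  rw [h1, exp_conj h h']
  exact hm _ (hm _ ha _ (hX t)) _ ha'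

theorem sub_mem (hL : IsClosed L) (h1 : (1 : R) ∈ L) (hm : ∀ a ∈ L, ∀ b ∈ L, a * b ∈ L)
    {X Y : R} (hX : X ∈ LieOf L) (hY : Y ∈ LieOf L) : X - Y ∈ LieOf L := by
  rw [sub_eq_add_neg]
  exact add_mem hL h1 hm hX (neg_mem hY)

/-- **the bracket** -/
theorem lie_mem (hL : IsClosed L) (h1 : (1 : R) ∈ L) (hm : ∀ a ∈ L, ∀ b ∈ L, a * b ∈ L)
    {X Y : R} (hX : X ∈ LieOf L) (hY : Y ∈ LieOf L) : X * Y - Y * X ∈ LieOf L := by
  have hd : HasDerivAt (fun t : ℝ => exp (t • X) * Y * exp (t • (-X))) (X * Y - Y * X) 0 := by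
    have h2 := ((hasDerivAt_exp X).mul_const Y).mul (hasDerivAt_exp (-X))
    rw [zero_smul, zero_smul, exp_zero, mul_one, one_mul, mul_neg, ← sub_eq_add_neg] at h2
    exact h2
  have hs := hd.tendsto_slope
  refine (isClosed_lieOf hL).mem_of_tendsto hs ?_
  filter_upwards [self_mem_nhdsWithin] with t _
  rw [slope_def_module]
  refine smul_mem (sub_mem hL h1 hm ?_ ?_) _
  · refine conj_mem hm ?_ ?_ (hX t) (neg_mem hX t) hY
    · rw [smul_neg]
      exact exp_mul_neg _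
    · rw [smul_neg]
      exact exp_neg_mul _
  · simpa using hY

/-- the Lie algebra of a closed multiplicative set as a real subspace -/
def lieSub (hL : IsClosed L) (h1 : (1 : R) ∈ L) (hm : ∀ a ∈ L, ∀ b ∈ L, a * b ∈ L) :
    Submodule ℝ R where
  carrier := LieOf L
  zero_mem' := zero_mem h1
  add_mem' := add_mem hL h1 hm
  smul_mem' c _ hX := smul_mem hX c

end Vale.Agent.P011.H525.Lie
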